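import Vale.Agent.P181.HO.Defs
import Vale.Agent.P181.PL10.Lin

set_option autoImplicit false

/-!
# P181, HO: the hole for every power of the logarithm
-/

namespace Vale.Agent.P181.HO.H605

open Vale.Agent.P181.T4 (ex low)
open Vale.Agent.P181.H280 (plethMult)
open Vale.Agent.P181.PL

/-- **(HO6)** from (HO5). -/
theorem diagH (hH : HoleX) : DiagH := by
  intro C c
  obtain ⟨K0, hK0⟩ : ∃ K0 : ℝ, K0 = 10 ^ 12 + |C| := ⟨_, rfl⟩
  have hC0 : 0 ≤ |C| := abs_nonneg C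
  have hK12 : (10 : ℝ) ^ 12 ≤ K0 := by
    rw [hK0]
    linarith
  have hKC : C ≤ K0 := by
    rw [hK0]
    have := le_abs_self C
    have h12 : (0 : ℝ) ≤ 10 ^ 12 := by positivity
    linarith
  have hK0p : 0 < K0 := lt_of_lt_of_le (by positivity) hK12
  have hK01 : 1 ≤ K0 := le_trans (by norm_num) hK12
  clear hK0
  obtain ⟨K, hK⟩ : ∃ K : ℝ, K = 2 * K0 := ⟨_, rfl⟩
  have hKp : 0 < K := by
    rw [hK]
    positivity
  obtain ⟨m, hm⟩ : ∃ m : ℕ, m = 7 + c := ⟨_, rfl⟩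
  obtain ⟨A0, hA0⟩ := PL10.ev K hKp m 20000
  obtain ⟨q, hq⟩ : ∃ q : ℕ, q = 13000 := ⟨_, rfl⟩
  have hKq : 0 < K ^ q := pow_pos hKp _
  refine ⟨K ^ q + (A0 : ℝ) ^ 2 + 1, m * q, ?_, ?_⟩
  · have : (0 : ℝ) ≤ (A0 : ℝ) ^ 2 := by positivity
    linarith
  intro a b hab n lam h2a hD hw
  have hlog : 0 ≤ Real.log a := Real.log_natCast_nonneg a
  have hLq : (1 : ℝ) ≤ (1 + Real.log a) ^ (m * q) := one_le_pow₀ (by linarith)
  have hLc : (1 : ℝ) ≤ (1 + Real.log a) ^ c := one_le_pow₀ (by linarith)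
  have hL7 : (1 : ℝ) ≤ (1 + Real.log a) ^ 7 := one_le_pow₀ (by linarith)
  have hLm : (1 + Real.log a) ^ m = (1 + Real.log a) ^ 7 * (1 + Real.log a) ^ c := by
    rw [hm, pow_add]
  have hL1 : (1 : ℝ) ≤ (1 + Real.log a) ^ m := one_le_pow₀ (by linarith)
  have hdw : (0 : ℝ) ≤ (dn lam 1 : ℝ) := Nat.cast_nonneg _
  have hA2 : (0 : ℝ) ≤ (A0 : ℝ) ^ 2 := by positivity
  rcases lt_or_ge a A0 with ha | ha
  · -- small `a`
    have h0 : dn lam 1 = 0 := by
      by_contra hne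
      have h1 : (1 : ℝ) ≤ dn lam 1 := by exact_mod_cast Nat.one_le_iff_ne_zero.2 hne
      have h2 : (a : ℝ) ^ 2 < (A0 : ℝ) ^ 2 := by
        have : (a : ℝ) < A0 := by exact_mod_cast ha
        exact pow_lt_pow_left₀ this (Nat.cast_nonneg _) (by norm_num)
      have h5 : (0 : ℝ) ≤ K ^ q + (A0 : ℝ) ^ 2 + 1 := by positivity
      have h6 : K ^ q + (A0 : ℝ) ^ 2 + 1 ≤
          (K ^ q + (A0 : ℝ) ^ 2 + 1) * (1 + Real.log a) ^ (m * q) :=
        le_mul_of_one_le_right h5 hLq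
      have h7 : (K ^ q + (A0 : ℝ) ^ 2 + 1) * (1 + Real.log a) ^ (m * q) ≤
          (K ^ q + (A0 : ℝ) ^ 2 + 1) * (1 + Real.log a) ^ (m * q) * (dn lam 1 : ℝ) :=
        le_mul_of_one_le_right (h5.trans h6) h1
      linarith
    have h1 := dn_anti lam (show 1 ≤ 2 by norm_num)
    exact PL10.few a b n lam (by omega)
  refine PL10.trimQ lam fun k mu hanti hsum hpos hka hdn => ?_
  rcases hab.eq_or_lt with hab' | hab''
  · subst hab'
    exact le_rfl
  -- the number `X`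
  obtain ⟨X, hX⟩ : ∃ X : ℕ, X = ⌈K0 * (1 + Real.log a) ^ m⌉₊ := ⟨_, rfl⟩
  have hX1 : K0 * (1 + Real.log a) ^ m ≤ (X : ℝ) := by
    rw [hX]
    exact Nat.le_ceil _
  have hX2 : (X : ℝ) ≤ K * (1 + Real.log a) ^ m := by
    have h2 := Nat.ceil_lt_add_one (show 0 ≤ K0 * (1 + Real.log a) ^ m by positivity)
    rw [← hX] at h2
    have h3 : (1 : ℝ) ≤ K0 * (1 + Real.log a) ^ m :=
      one_le_mul_of_one_le_of_one_le hK01 hL1
    rw [hK]
    linarith
  have hX0 : (0 : ℝ) ≤ X := Nat.cast_nonneg X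
  have hex2 : ex lam 2 = ex mu 2 := by
    have f1 := dn_succ lam 2
    have f2 := dn_succ mu 2
    rw [hdn 2, hdn (2 + 1)] at f2
    omega
  refine hH a b k X mu ⟨hanti, hsum, hpos, hab'', ?_, ?_, ?_, ?_, ?_⟩
  · rw [hdn 1]
    exact h2a
  · rw [hdn 1, ← hex2]
    have h3 : (((dn lam 1 - a - ex lam 2 : ℕ) : ℝ)) ^ 2 ≤
        ((dn lam 1 : ℝ) - a - ex lam 2) ^ 2 := by
      rcases Nat.lt_or_ge (dn lam 1) (a + ex lam 2) with h | h
      · rw [show dn lam 1 - a - ex lam 2 = 0 by omega]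
        have := sq_nonneg ((dn lam 1 : ℝ) - a - ex lam 2)
        simpa using this
      · rw [Nat.cast_sub (by omega), Nat.cast_sub (by omega)]
    have h4 : C * (1 + Real.log a) ^ c * (dn lam 1 : ℝ) ≤ (X : ℝ) * (dn lam 1 : ℝ) := by
      apply mul_le_mul_of_nonneg_right _ hdw
      refine le_trans ?_ hX1
      rw [hLm]
      calc C * (1 + Real.log a) ^ c ≤ K0 * (1 + Real.log a) ^ c :=
            mul_le_mul_of_nonneg_right hKC (by positivity)
        _ ≤ K0 * ((1 + Real.log a) ^ 7 * (1 + Real.log a) ^ c) := by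
            apply mul_le_mul_of_nonneg_left _ hK0p.le
            exact le_mul_of_one_le_left (by positivity) hL7
    have h5 := (h3.trans hD).trans h4
    rw [← Nat.cast_pow, ← Nat.cast_mul] at h5
    exact Nat.cast_le.1 h5
  · have h1 : (X : ℝ) ^ 20000 ≤ (K * (1 + Real.log a) ^ m) ^ 20000 :=
      pow_le_pow_left₀ hX0 hX2 _
    have h2 := h1.trans (hA0 a ha)
    rw [← Nat.cast_pow] at h2
    exact Nat.cast_le.1 h2
  · refine le_trans ?_ hX1
    rw [hLm]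
    calc (10 : ℝ) ^ 12 * (1 + Real.log a) ^ 7 ≤ K0 * (1 + Real.log a) ^ 7 :=
          mul_le_mul_of_nonneg_right hK12 (by positivity)
      _ ≤ K0 * ((1 + Real.log a) ^ 7 * (1 + Real.log a) ^ c) := by
          apply mul_le_mul_of_nonneg_left _ hK0p.le
          exact le_mul_of_one_le_right (by positivity) hLc
  · rw [hdn 1]
    have h3 : (dn lam 1 : ℝ) * (X : ℝ) ^ q ≤ (a : ℝ) ^ 2 := by
      refine PL10.num_q q m hdw hX0 hX2 ?_
      refine le_trans ?_ hw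
      apply mul_le_mul_of_nonneg_right _ hdw
      apply mul_le_mul_of_nonneg_right _ (by positivity)
      linarith
    rw [hq] at h3
    rw [← Nat.cast_pow, ← Nat.cast_pow, ← Nat.cast_mul] at h3
    exact Nat.cast_le.1 h3

end Vale.Agent.P181.HO.H605
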